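import Vale.Agent.P355.K3Defs

namespace Vale.Agent.P355.K3

def fFA : List Fr := [⟨-4, 0, 2, 0, 184483889713486, 0, 273, 1⟩,
  ⟨-6, 0, 3, 0, 0, 30377269773412, 4113, 1⟩,
  ⟨-8, 0, 4, 0, 0, 95072732166, 273, 16⟩,
  ⟨-5, 0, 2, 0, 0, 53341996959677, 65809, 1⟩,
  ⟨-6, 0, 2, 0, 26958612699423, 0, 65809, 1⟩,
  ⟨-7, 0, 3, 0, 2694181392263, 0, 65809, 1⟩,
  ⟨-6, 2, 3, -1, 82563828426077, 0, 275, 196881⟩,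
  ⟨-4, 1, 2, -2, 0, 406276261156166, 65925, 65808⟩,
  ⟨-4, 0, 1, 2, 76324199240233, 0, 327988, 327944⟩,
  ⟨-5, 1, 2, -2, 0, 239146163413258, 67665, 4353⟩,
  ⟨-5, 1, 2, 1, 0, 30140155969710, 329745, 328721⟩,
  ⟨-6, 2, 3, -2, 66964797418414, 0, 86033, 196885⟩,
  ⟨-5, 1, 2, 2, 0, 67179418186513, 20808, 328001⟩,
  ⟨-6, 2, 3, -3, 0, 316356139089, 66840, 67857⟩]

end Vale.Agent.P355.K3
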